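import Vale.Agent.P287.H621.D1
import Vale.Agent.P287.H684.Bk
import Vale.Agent.P287.H684.TopG
import Vale.Agent.P287.Odd.Deg
import Vale.Agent.P287.EvenN.Spec

/-!
The block [FE]: spaces of vectors of forms orthogonal to the rows of `w` modulo `g`, in the affine
chart.
-/

namespace Vale.Agent.P287.H684.EvenN

open Polynomial Vale.Agent.P287 Vale.Agent.P287.Theta Matrix Module Vale.Agent.P287.H684
open Vale.Agent.P287.H621 (ch ch_surj ch_inj TD_ch Wd_iff_TD)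
open Vale.Agent.P287.EvenN Vale.Agent.P287.Odd

lemma Wd_TW {d : ℕ} {P : ℂ[X][X]} : Wd d P ↔ TW d P := H621.Wd_iff_TW

/-- Rank-nullity. -/
lemma rank_aux {k U V : Type*} [Field k] [AddCommGroup U] [Module k U] [AddCommGroup V]
    [Module k V] (Z : Submodule k V) [Module.Finite k Z] (f : V →ₗ[k] V) (G : U →ₗ[k] V)
    (hG : Function.Injective G) (hGZ : ∀ u, G u ∈ Z) (hGf : ∀ u, f (G u) = 0)
    (hk : ∀ v ∈ Z, f v = 0 → ∃ u, G u = v) :
    finrank k Z = finrank k (Z.map f) + finrank k U := by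
  have hker : (LinearMap.ker (f.domRestrict Z)).map Z.subtype = LinearMap.range G := by
    ext v
    constructor
    · rintro ⟨z, hz, rfl⟩
      exact hk z z.2 hz
    · rintro ⟨u, rfl⟩
      exact ⟨⟨G u, hGZ u⟩, hGf u, rfl⟩
  have h1 := LinearMap.finrank_range_add_finrank_ker (f.domRestrict Z)
  rw [LinearMap.range_domRestrict, ← Submodule.finrank_map_subtype_eq Z, hker,
    LinearMap.finrank_range_of_inj hG] at h1
  exact h1.symm

/-- Divisibility of forms is tested in the chart. -/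
theorem dvd_of_ch {T S : Matrix (Fin 3) (Fin 3) ℂ} (hTS : T * S = 1) {g P : R3} {n d : ℕ}
    (hg : g.IsHomogeneous n) (hP : P.IsHomogeneous d) {g' : ℂ[X][X]} {v : ℂ}
    (hg' : g' = C (C v) * ch T g) (hm : g'.Monic) (hn : g'.natDegree = n) (hW : Wd n g')
    (h : g' ∣ ch T P) : g ∣ P := by
  obtain ⟨q, hq⟩ := h
  have hW' := Wd_TW.1 hW
  have htop : H684.top n g' ≠ 0 := (monic_top hm hn).1.ne_zero
  have hPT : TW d (ch T P) := Wd_TW.1 (Wd_iff_TD.2 (TD_ch hP))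
  by_cases hq0 : q = 0
  · have h1 : ch T P = ch T 0 := by rw [hq, hq0, mul_zero, map_zero]
    have h2 := ch_inj hTS hP (MvPolynomial.isHomogeneous_zero _ _ d) h1
    rw [h2]
    exact dvd_zero g
  have hnd : n ≤ d := H684.le_of_TW_mul hW' htop hq0 (hq ▸ hPT)
  have hqT : TW (d - n) q := by
    refine H684.TW_of_mul hW' htop ?_
    rw [show n + (d - n) = d by omega, ← hq]
    exact hPT
  obtain ⟨Q, hQ, hQq⟩ := ch_surj hTS (Wd_iff_TD.1 (Wd_TW.2 hqT))
  have hC : ch T (MvPolynomial.C v) = C (C v) := by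
    have := (ch T).commutes v
    rwa [MvPolynomial.algebraMap_eq] at this
  have h3 : ch T P = ch T (MvPolynomial.C v * g * Q) := by
    rw [map_mul, map_mul, hC, hQq, ← hg', hq]
  have h4 : (MvPolynomial.C v * g * Q).IsHomogeneous d := by
    have := ((MvPolynomial.isHomogeneous_C (Fin 3) v).mul hg).mul hQ
    rwa [show 0 + n + (d - n) = d by omega] at this
  rw [ch_inj hTS hP h4 h3]
  exact ⟨MvPolynomial.C v * Q, by ring⟩

/-- The vectors of forms `v i` of degree `k + wt0 i`, orthogonal modulo `g` to `w 0` and `w 1`. -/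
def formsW (g : R3) (w : Fin 2 → Fin 4 → R3) (k : ℕ) : Submodule ℂ (Fin 4 → R3) where
  carrier := {v | (∀ i, (v i).IsHomogeneous (k + wt0 i)) ∧ ∀ a, g ∣ w a ⬝ᵥ v}
  add_mem' := fun {v u} hv hu => ⟨fun i => (hv.1 i).add (hu.1 i), fun a => by
    rw [dotProduct_add]
    exact dvd_add (hv.2 a) (hu.2 a)⟩
  zero_mem' := ⟨fun i => MvPolynomial.isHomogeneous_zero _ _ _, fun a => by
    rw [dotProduct_zero]
    exact dvd_zero g⟩
  smul_mem' := fun c v hv => ⟨fun i =>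
    (MvPolynomial.homogeneousSubmodule (Fin 3) ℂ _).smul_mem c (hv.1 i), fun a => by
    rw [dotProduct_smul]
    exact (hv.2 a).trans (by rw [MvPolynomial.smul_eq_C_mul]; exact Dvd.intro_left _ rfl)⟩

lemma mem_formsW {g : R3} {w : Fin 2 → Fin 4 → R3} {k : ℕ} {v : Fin 4 → R3} :
    v ∈ formsW g w k ↔ (∀ i, (v i).IsHomogeneous (k + wt0 i)) ∧ ∀ a, g ∣ w a ⬝ᵥ v := Iff.rfl

section affine

variable {k : Type} [Field k]

/-- The vectors of degree at most `d + wt0` in a module. -/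
noncomputable def Zd (d : ℕ) (Y : Submodule k[X][X] (Fin 4 → k[X][X])) :
    Submodule k (Fin 4 → k[X][X]) :=
  Y.restrictScalars k ⊓ Submodule.pi Set.univ (fun i => PT k (d + wt0 i))

lemma mem_Zd {d : ℕ} {Y : Submodule k[X][X] (Fin 4 → k[X][X])}
    {v : Fin 4 → k[X][X]} : v ∈ Zd d Y ↔ v ∈ Y ∧ ∀ i, TW (d + wt0 i) (v i) := by
  rw [Zd, Submodule.mem_inf, Submodule.restrictScalars_mem, Submodule.mem_pi]
  exact and_congr_right fun _ => ⟨fun h i => h i trivial, fun h i _ => h i⟩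

lemma mem_Yd4 {n d : ℕ} {Y : Submodule k[X][X] (Fin 4 → k[X][X])}
    {v : Fin 4 → k[X][X]} : v ∈ Yd4 n d Y ↔ v ∈ Y ∧ ∀ i, v i ∈ En (k := k) n (d + wt0 i) := by
  rw [Yd4, Submodule.mem_inf, Submodule.restrictScalars_mem, Submodule.mem_pi]
  exact and_congr_right fun _ => ⟨fun h i => h i trivial, fun h i _ => h i⟩

/-- The coefficients of a vector of degree at most `d`. -/
noncomputable def cv (d : ℕ) (Y : Submodule k[X][X] (Fin 4 → k[X][X])) :
    Zd d Y →ₗ[k] ((i : Fin 4) → (j : Fin (d + wt0 i + 1)) → Fin (d + wt0 i + 1 - j) → k) where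
  toFun v := fun i j t => (((v : Fin 4 → k[X][X]) i).coeff j).coeff t
  map_add' v v' := by
    funext i j t
    simp only [Submodule.coe_add, Pi.add_apply, coeff_add]
  map_smul' c v := by
    funext i j t
    simp only [Submodule.coe_smul, Pi.smul_apply, coeff_smul, RingHom.id_apply]

lemma cv_injective (d : ℕ) (Y : Submodule k[X][X] (Fin 4 → k[X][X])) :
    Function.Injective (cv d Y) := by
  intro v v' h
  apply Subtype.ext
  funext i
  have h1 : ((v : Fin 4 → k[X][X]) i) ∈ PB k (d + wt0 i + 1) (d + wt0 i) := by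
    rw [← PT_eq]
    exact (mem_Zd.1 v.2).2 i
  have h2 : ((v' : Fin 4 → k[X][X]) i) ∈ PB k (d + wt0 i + 1) (d + wt0 i) := by
    rw [← PT_eq]
    exact (mem_Zd.1 v'.2).2 i
  have h3 := (coeffMap_bijective (k := k) (d + wt0 i + 1) (d + wt0 i)).1 (a₁ := ⟨_, h1⟩)
    (a₂ := ⟨_, h2⟩) (congrFun h i)
  exact congrArg Subtype.val h3

instance finite_Zd (d : ℕ) (Y : Submodule k[X][X] (Fin 4 → k[X][X])) :
    Module.Finite k (Zd d Y) :=
  Module.Finite.of_injective (cv d Y) (cv_injective d Y)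

lemma cv_surjective (d : ℕ) : Function.Surjective (cv (k := k) d ⊤) := by
  intro a
  have h : ∀ i : Fin 4, ∃ p : PB k (d + wt0 i + 1) (d + wt0 i),
      coeffMap (d + wt0 i + 1) (d + wt0 i) p = a i := fun i =>
    (coeffMap_bijective (k := k) (d + wt0 i + 1) (d + wt0 i)).2 (a i)
  choose p hp using h
  refine ⟨⟨fun i => p i, mem_Zd.2 ⟨trivial, fun i => ?_⟩⟩, ?_⟩
  · exact (p i).2.1
  · funext i
    exact hp i

lemma sum_fin (m : ℕ) : ∑ j : Fin (m + 1), (m + 1 - (j : ℕ)) = (m + 2).choose 2 := by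
  rw [← finrank_PB (k := ℂ), ← PT_eq, finrank_PT]

lemma finrank_Zd_top (d : ℕ) : finrank k (Zd (k := k) d ⊤) =
    3 * (d + 2).choose 2 + (d + 3).choose 2 := by
  rw [(LinearEquiv.ofBijective (cv (k := k) d ⊤) ⟨cv_injective d ⊤, cv_surjective d⟩).finrank_eq,
    Module.finrank_pi_fintype]
  have h : ∀ i : Fin 4, finrank k ((j : Fin (d + wt0 i + 1)) → Fin (d + wt0 i + 1 - j) → k) =
      (d + wt0 i + 2).choose 2 := by
    intro i
    rw [Module.finrank_pi_fintype]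
    simp only [Module.finrank_fin_fun]
    exact sum_fin (d + wt0 i)
  simp only [h, Fin.sum_univ_four]
  simp only [wt0, cons_val_zero, cons_val_one, cons_val, add_zero]
  rw [show d + 1 + 2 = d + 3 by ring]
  ring

/-- Multiplication by `g`. -/
noncomputable def gmap (g : k[X][X]) (m : ℕ) :
    Zd (k := k) m ⊤ →ₗ[k] (Fin 4 → k[X][X]) where
  toFun q := fun i => g * (q : Fin 4 → k[X][X]) i
  map_add' q q' := by
    funext i
    simp only [Pi.add_apply, Submodule.coe_add, mul_add]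
  map_smul' c q := by
    funext i
    simp only [Pi.smul_apply, Submodule.coe_smul, RingHom.id_apply, mul_smul_comm]

lemma smul_mod (g : k[X][X]) (c : k) (p : k[X][X]) : (c • p) %ₘ g = c • (p %ₘ g) := by
  have h1 : ∀ q : k[X][X], c • q = (C c : k[X]) • q := by
    intro q
    ext i j
    rw [coeff_smul, coeff_smul, coeff_smul, smul_eq_mul, smul_eq_mul, coeff_C_mul]
  rw [h1, h1, smul_modByMonic]

/-- Reduction modulo `g`. -/
noncomputable def modv (g : k[X][X]) :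
    (Fin 4 → k[X][X]) →ₗ[k] (Fin 4 → k[X][X]) where
  toFun v := fun i => v i %ₘ g
  map_add' v v' := by
    funext i
    exact add_modByMonic _ _
  map_smul' c v := by
    funext i
    exact smul_mod g c (v i)

lemma modv_apply (g : k[X][X]) (v : Fin 4 → k[X][X]) (i : Fin 4) : modv g v i = v i %ₘ g := rfl

variable {g : k[X][X]} {n d : ℕ}

lemma modv_mem_modW {w : Fin 2 → Fin 4 → k[X][X]} {v : Fin 4 → k[X][X]} :
    modv g v ∈ modW g w ↔ v ∈ modW g w := by
  have h : ∀ a, w a ⬝ᵥ v = w a ⬝ᵥ modv g v + g * (w a ⬝ᵥ fun i => v i /ₘ g) := by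
    intro a
    simp only [dotProduct, Finset.mul_sum, ← Finset.sum_add_distrib, modv_apply]
    refine Finset.sum_congr rfl fun i _ => ?_
    conv_lhs => rw [← modByMonic_add_div (v i) g]
    ring
  refine forall_congr' fun a => ?_
  rw [h a]
  exact (dvd_add_left (Dvd.intro _ rfl)).symm

lemma TW_of_modByMonic_eq_zero (hg : g.Monic) (hn : g.natDegree = n) (hW : TW n g) {e : ℕ}
    {p : k[X][X]} (hp : TW e p) (hne : n ≤ e) (h : p %ₘ g = 0) : ∃ q, TW (e - n) q ∧ p = g * q := by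
  obtain ⟨q, hq⟩ := (modByMonic_eq_zero_iff_dvd hg).1 h
  refine ⟨q, ?_, hq⟩
  refine H684.TW_of_mul hW (monic_top hg hn).1.ne_zero ?_
  rw [show n + (e - n) = e by omega, ← hq]
  exact hp

lemma map_modv (hg : g.Monic) (hn : g.natDegree = n) (hW : TW n g)
    (w : Fin 2 → Fin 4 → k[X][X]) :
    (Zd d (modW g w)).map (modv g) = Yd4 n d (modW g w) := by
  ext v
  rw [mem_Yd4]
  constructor
  · rintro ⟨z, hz0, rfl⟩
    have hz := mem_Zd.1 hz0
    exact ⟨modv_mem_modW.2 hz.1, fun i => mod_mem_En hg hn (Wd_iff.2 hW) (Wd_iff.2 (hz.2 i))⟩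
  · rintro ⟨h1, h2⟩
    refine ⟨v, mem_Zd.2 ⟨h1, fun i => Wd_iff.1 (mem_En.1 (h2 i)).1⟩, ?_⟩
    funext i
    exact mod_eq_self hg hn (mem_En.1 (h2 i)).2

lemma gmap_injective (hg : g.Monic) (m : ℕ) : Function.Injective (gmap g m) := by
  intro q q' h
  apply Subtype.ext
  funext i
  exact mul_left_cancel₀ hg.ne_zero (congrFun h i)

lemma gmap_mem (hW : TW n g) (hd : n ≤ d) (w : Fin 2 → Fin 4 → k[X][X])
    (q : Zd (k := k) (d - n) ⊤) : gmap g (d - n) q ∈ Zd d (modW g w) := by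
  refine mem_Zd.2 ⟨fun a => ?_, fun i => ?_⟩
  · have h2 : w a ⬝ᵥ gmap g (d - n) q = g * (w a ⬝ᵥ (q : Fin 4 → k[X][X])) := by
      simp only [dotProduct, Finset.mul_sum]
      refine Finset.sum_congr rfl fun i _ => ?_
      change w a i * (g * (q : Fin 4 → k[X][X]) i) = _
      ring
    rw [h2]
    exact Dvd.intro _ rfl
  · have h2 := hW.mul ((mem_Zd.1 q.2).2 i)
    rw [show n + (d - n + wt0 i) = d + wt0 i by omega] at h2
    exact h2

lemma modv_gmap (hg : g.Monic) (m : ℕ) (q : Zd (k := k) m ⊤) :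
    modv g (gmap g m q) = 0 := by
  funext i
  change (g * (q : Fin 4 → k[X][X]) i) %ₘ g = 0
  rw [mul_comm]
  exact mul_self_modByMonic hg

lemma exists_gmap (hg : g.Monic) (hn : g.natDegree = n) (hW : TW n g) (hd : n ≤ d)
    {Y : Submodule k[X][X] (Fin 4 → k[X][X])} (v : Fin 4 → k[X][X]) (hv : v ∈ Zd d Y)
    (h0 : modv g v = 0) : ∃ u, gmap g (d - n) u = v := by
  have hz1 := mem_Zd.1 hv
  have hz2 : ∀ i, v i %ₘ g = 0 := fun i => congrFun h0 i
  have hz3 : ∀ i, ∃ q, TW (d - n + wt0 i) q ∧ v i = g * q := by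
    intro i
    obtain ⟨q, hq, hq'⟩ := TW_of_modByMonic_eq_zero hg hn hW (hz1.2 i) (by omega) (hz2 i)
    refine ⟨q, ?_, hq'⟩
    rwa [show d + wt0 i - n = d - n + wt0 i by omega] at hq
  choose q hq hq' using hz3
  refine ⟨⟨q, mem_Zd.2 ⟨trivial, hq⟩⟩, ?_⟩
  funext i
  exact (hq' i).symm

lemma finrank_Zd_aux (hg : g.Monic) (hn : g.natDegree = n) (hW : TW n g) (hd : n ≤ d)
    (w : Fin 2 → Fin 4 → k[X][X]) :
    finrank k (Zd d (modW g w)) = finrank k ((Zd d (modW g w)).map (modv g)) +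
      finrank k (Zd (k := k) (d - n) ⊤) :=
  rank_aux (k := k) (U := Zd (k := k) (d - n) ⊤) (V := Fin 4 → k[X][X]) (Zd d (modW g w))
    (modv g) (gmap g (d - n)) (gmap_injective hg _)
    (gmap_mem hW hd w) (modv_gmap hg _) (fun v hv h0 => exists_gmap hg hn hW hd v hv h0)

theorem finrank_Zd (hg : g.Monic) (hn : g.natDegree = n) (hW : TW n g) (hd : n ≤ d)
    (w : Fin 2 → Fin 4 → k[X][X]) :
    finrank k (Zd d (modW g w)) = finrank k (Yd4 n d (modW g w)) +
      (3 * (d - n + 2).choose 2 + (d - n + 3).choose 2) := by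
  rw [finrank_Zd_aux hg hn hW hd, map_modv hg hn hW, finrank_Zd_top]

end affine

lemma wt0_le (i : Fin 4) : wt0 i ≤ 1 := by
  fin_cases i <;> simp [wt0]

lemma dot_homog {w v : Fin 4 → R3} {e k : ℕ} (hw : ∀ i, (w i).IsHomogeneous (e + 1 - wt0 i))
    (hv : ∀ i, (v i).IsHomogeneous (k + wt0 i)) : (w ⬝ᵥ v).IsHomogeneous (e + 1 + k) := by
  rw [dotProduct]
  refine MvPolynomial.IsHomogeneous.sum _ _ _ fun i _ => ?_
  have h := (hw i).mul (hv i)
  have := wt0_le i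
  rwa [show e + 1 - wt0 i + (k + wt0 i) = e + 1 + k by omega] at h

lemma ch_dot (T : Matrix (Fin 3) (Fin 3) ℂ) (w v : Fin 4 → R3) :
    ch T (w ⬝ᵥ v) = (fun i => ch T (w i)) ⬝ᵥ fun i => ch T (v i) := by
  rw [dotProduct, map_sum]
  simp only [map_mul]
  rfl

/-- The chart on vectors of forms. -/
noncomputable def chv (T : Matrix (Fin 3) (Fin 3) ℂ) {g : R3} {w : Fin 2 → Fin 4 → R3} {k : ℕ}
    {g' : ℂ[X][X]} {w' : Fin 2 → Fin 4 → ℂ[X][X]}
    (h : ∀ v ∈ formsW g w k, (fun i => ch T (v i)) ∈ Zd k (modW g' w')) :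
    formsW g w k →ₗ[ℂ] Zd k (modW g' w') where
  toFun v := ⟨fun i => ch T ((v : Fin 4 → R3) i), h v v.2⟩
  map_add' v v' := by
    apply Subtype.ext
    funext i
    exact map_add (ch T) _ _
  map_smul' c v := by
    apply Subtype.ext
    funext i
    exact map_smul (ch T) c _

lemma mem_modW {R : Type} [CommRing R] {g : R} {w : Fin 2 → Fin 4 → R} {v : Fin 4 → R} :
    v ∈ modW g w ↔ ∀ a, g ∣ w a ⬝ᵥ v := Iff.rfl

lemma chv_mem {T : Matrix (Fin 3) (Fin 3) ℂ} {g : R3} {k : ℕ} {v : ℂ} (hv : v ≠ 0)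
    {g' : ℂ[X][X]} (hg' : g' = C (C v) * ch T g) {w : Fin 2 → Fin 4 → R3}
    {w' : Fin 2 → Fin 4 → ℂ[X][X]} (hw' : ∀ a, w' a = fun i => ch T (w a i)) (u : Fin 4 → R3)
    (hu : u ∈ formsW g w k) : (fun i => ch T (u i)) ∈ Zd k (modW g' w') := by
  obtain ⟨hu1, hu2⟩ := mem_formsW.1 hu
  rw [mem_Zd, mem_modW]
  refine ⟨fun a => ?_, fun i => Wd_TW.1 (Wd_iff_TD.2 (TD_ch (hu1 i)))⟩
  obtain ⟨q, hq⟩ := hu2 a
  have hc : (C (C v) * C (C v⁻¹) : ℂ[X][X]) = 1 := by
    rw [← C_mul, ← C_mul, mul_inv_cancel₀ hv, C_1, C_1]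
  refine ⟨C (C v⁻¹) * ch T q, ?_⟩
  rw [hw', ← ch_dot, hq, map_mul, hg']
  calc ch T g * ch T q = (C (C v) * C (C v⁻¹)) * (ch T g * ch T q) := by rw [hc, one_mul]
    _ = C (C v) * ch T g * (C (C v⁻¹) * ch T q) := by ring

lemma chv_bijective {T S : Matrix (Fin 3) (Fin 3) ℂ} (hTS : T * S = 1) {g : R3} {n k : ℕ}
    (hg : g.IsHomogeneous n) {v : ℂ} {g' : ℂ[X][X]} (hg' : g' = C (C v) * ch T g)
    (hm : g'.Monic) (hn : g'.natDegree = n) (hW : Wd n g')
    {w : Fin 2 → Fin 4 → R3} {w' : Fin 2 → Fin 4 → ℂ[X][X]}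
    (hw' : ∀ a, w' a = fun i => ch T (w a i)) {e : Fin 2 → ℕ}
    (hw : ∀ a i, (w a i).IsHomogeneous (e a + 1 - wt0 i))
    (h : ∀ u ∈ formsW g w k, (fun i => ch T (u i)) ∈ Zd k (modW g' w')) :
    Function.Bijective (chv T h) := by
  constructor
  · intro u u' hu
    apply Subtype.ext
    funext i
    exact ch_inj hTS (u.2.1 i) (u'.2.1 i) (congrFun (congrArg Subtype.val hu) i)
  · intro z
    obtain ⟨hz1, hz2⟩ := mem_Zd.1 z.2
    rw [mem_modW] at hz1
    have h3 : ∀ i, ∃ P : R3, P.IsHomogeneous (k + wt0 i) ∧ ch T P = (z : Fin 4 → ℂ[X][X]) i :=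
      fun i => ch_surj hTS (Wd_iff_TD.1 (Wd_TW.2 (hz2 i)))
    choose u hu hu' using h3
    have h4 : (fun i => ch T (u i)) = (z : Fin 4 → ℂ[X][X]) := funext hu'
    have h5 : ∀ a, g ∣ w a ⬝ᵥ u := by
      intro a
      refine dvd_of_ch hTS hg (dot_homog (hw a) hu) hg' hm hn hW ?_
      rw [ch_dot, h4, ← hw']
      exact hz1 a
    refine ⟨⟨u, hu, h5⟩, ?_⟩
    exact Subtype.ext h4

/-- [FE] -/
theorem finrank_formsW {T S : Matrix (Fin 3) (Fin 3) ℂ} (hTS : T * S = 1) {g : R3} {n k : ℕ}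
    (hg : g.IsHomogeneous n) {v : ℂ} {g' : ℂ[X][X]} (hg' : g' = C (C v) * ch T g)
    (hm : g'.Monic) (hn : g'.natDegree = n) (hW : Wd n g')
    {w : Fin 2 → Fin 4 → R3} {w' : Fin 2 → Fin 4 → ℂ[X][X]}
    (hw' : ∀ a, w' a = fun i => ch T (w a i)) {e : Fin 2 → ℕ}
    (hw : ∀ a i, (w a i).IsHomogeneous (e a + 1 - wt0 i)) (hk : n ≤ k) :
    finrank ℂ (formsW g w k) = finrank ℂ (Yd4 n k (modW g' w')) +
        (3 * (k - n + 2).choose 2 + (k - n + 3).choose 2) := by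
  have hv : v ≠ 0 := by
    rintro rfl
    apply hm.ne_zero
    rw [hg', C_0, C_0, zero_mul]
  rw [← finrank_Zd hm hn (Wd_TW.1 hW) hk]
  have h := chv_bijective (k := k) hTS hg hg' hm hn hW hw' hw
    (fun u hu => chv_mem hv hg' hw' u hu)
  exact (LinearEquiv.ofBijective _ h).finrank_eq

lemma choose_aux (N : ℕ) : 3 * (N + 2).choose 2 + (N + 3).choose 2 = (N + 2) * (2 * N + 3) := by
  induction N with
  | zero => rfl
  | succ N ih =>
    have h1 : (N + 1 + 2).choose 2 = (N + 2).choose 2 + (N + 2) := by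
      rw [show N + 1 + 2 = (N + 2) + 1 by ring, Nat.choose_succ_succ' (N + 2) 1, Nat.choose_one_right]
      ring
    have h2 : (N + 1 + 3).choose 2 = (N + 3).choose 2 + (N + 3) := by
      rw [show N + 1 + 3 = (N + 3) + 1 by ring, Nat.choose_succ_succ' (N + 3) 1, Nat.choose_one_right]
      ring
    rw [h1, h2]
    nlinarith [ih]

/-- [FE], parity form for curves of even degree. -/
theorem even_formsW {T S : Matrix (Fin 3) (Fin 3) ℂ} (hTS : T * S = 1) {g : R3} {r k : ℕ}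
    (hg : g.IsHomogeneous (2 * r)) {v : ℂ} {g' : ℂ[X][X]} (hg' : g' = C (C v) * ch T g)
    (hm : g'.Monic) (hn : g'.natDegree = 2 * r) (hW : Wd (2 * r) g')
    {w : Fin 2 → Fin 4 → R3} {w' : Fin 2 → Fin 4 → ℂ[X][X]}
    (hw' : ∀ a, w' a = fun i => ch T (w a i)) {e : Fin 2 → ℕ}
    (hw : ∀ a i, (w a i).IsHomogeneous (e a + 1 - wt0 i)) (hk : 2 * r ≤ k) :
    Even (finrank ℂ (formsW g w k) + finrank ℂ (Yd4 (2 * r) k (modW g' w')) + k) := by
  rw [finrank_formsW hTS hg hg' hm hn hW hw' hw hk, choose_aux]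
  obtain ⟨N, rfl⟩ := Nat.exists_eq_add_of_le hk
  rw [Nat.add_sub_cancel_left]
  refine ⟨finrank ℂ (Yd4 (2 * r) (2 * r + N) (modW g' w')) +
    (N * N + 4 * N + r + 3), ?_⟩
  ring

end Vale.Agent.P287.H684.EvenN
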