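import Vale.Agent.P287.H684.EvenN.FE
import Vale.Agent.P287.EvenN.Skel

/-!
The block [FE], literal form.
-/

namespace Vale.Agent.P287.H684.EvenN

open Polynomial Vale.Agent.P287 Vale.Agent.P287.Theta Matrix Module Vale.Agent.P287.H684
open Vale.Agent.P287.H621 (ch)
open Vale.Agent.P287.EvenN Vale.Agent.P287.Odd

theorem Phi_eq (g : R3) (w : Fin 2 → Fin 4 → R3) (d : ℕ) : Phi g w d = formsW g w d := by
  ext v
  exact Iff.rfl

theorem stmtFE : StmtFE := by
  intro n g w e T S u _ hg _ hw hTS _ hm hn hW d hd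
  have h := finrank_formsW (k := d) hTS hg (v := u) (g' := C (C u) * dh (sb T g)) rfl hm hn hW
    (w := w) (w' := fun a i => dh (sb T (w a i))) (fun a => rfl) hw hd
  rw [Phi_eq, h, add_assoc]

end Vale.Agent.P287.H684.EvenN
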